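import Vale.Agent.Results.P200.E_lpp
import Vale.Agent.Results.P200.H_tailE

namespace Vale.Agent.Results.P200.AAA_union

open MvPolynomial Module Vale.Agent.Lib.P200 Vale.Agent.Lib.P200.Fam Vale.Agent.Lib.P200.All
  Vale.Agent.Lib.P200.N

/-- The union of the two strongest statements: over every field, (1) the Eisenbud-Green-Harris
statement for `c ≥ 3` forms in `n ≥ c` variables and all degree types with
`a i ≥ ∑_{j<i} (a j - 1)` for `i ≥ 3` counted from `0` (so every type when `c = 3`), and (2) the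
lex-plus-powers statement for three forms in three variables and every degree type. -/
theorem result {K : Type*} [Field K] :
    (∀ (c n : ℕ) (_ : 3 ≤ c) (_ : c ≤ n) (a : Fin c → ℕ) (_ : ∀ i, 2 ≤ a i) (_ : Monotone a)
      (_ : ∀ i : Fin c, 3 ≤ i.val → ∑ j ∈ Finset.univ.filter (fun j => j < i), (a j - 1) ≤ a i)
      (f : Fin c → MvPolynomial (Fin n) K) (_ : ∀ i, (f i).IsHomogeneous (a i))
      (_ : ∀ (i : Fin c) (u : MvPolynomial (Fin n) K),
        f i * u ∈ Ideal.span (f '' {j | j < i}) → u ∈ Ideal.span (f '' {j | j < i}))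
      (I : Ideal (MvPolynomial (Fin n) K)) (_ : ∀ i, f i ∈ I),
      (∃ 𝔍 : Ideal (MvPolynomial (Fin n) K), ∀ g, g ∈ 𝔍 ↔ g ∈ ⨆ d, JN (eT a n) I d) ∧
        ∀ d, finrank K (JN (eT a n) I d) = finrank K (degPartN I d)) ∧
    (∀ (a b c : ℕ) (_ : 2 ≤ a) (_ : a ≤ b) (_ : b ≤ c)
      (f : Fin 3 → MvPolynomial (Fin 3) K)
      (_ : (f 0).IsHomogeneous a) (_ : (f 1).IsHomogeneous b) (_ : (f 2).IsHomogeneous c)
      (_ : ∀ (i : Fin 3) (u : MvPolynomial (Fin 3) K),
        f i * u ∈ Ideal.span (f '' {j | j < i}) → u ∈ Ideal.span (f '' {j | j < i}))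
      (I : Ideal (MvPolynomial (Fin 3) K)) (_ : ∀ i, f i ∈ I),
      ∃ 𝔍 : Ideal (MvPolynomial (Fin 3) K), (∀ g, g ∈ 𝔍 ↔ g ∈ ⨆ d, JE (a, b, c) I d) ∧
        (∀ d, finrank K (JE (a, b, c) I d) = finrank K (degPart I d)) ∧
        ∀ p j, kb I p j ≤ kb 𝔍 p j) :=
  ⟨fun c n hc hn a ha2 ha htail f hf hreg I hI =>
      Vale.Agent.Results.P200.H_tailE.result c n hc hn a ha2 ha htail f hf hreg I hI,
    fun a b c ha hab hbc f hf0 hf1 hf2 hreg I hI =>
      Vale.Agent.Results.P200.E_lpp.result a b c ha hab hbc f hf0 hf1 hf2 hreg I hI⟩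

end Vale.Agent.Results.P200.AAA_union
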